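import Mathlib

/-!
# P013: Jacobsthal's function (statement-level definition, helper4)
-/

namespace Vale.Agent.H4.P013

/-- Jacobsthal's function `j(n)`: the least positive `m` such that every `m` consecutive integers
`a, a+1, …, a+m-1` contain one coprime to `n`. -/
noncomputable def jacobsthal (n : ℕ) : ℕ :=
  sInf {m : ℕ | 0 < m ∧ ∀ a : ℤ, ∃ i : ℕ, i < m ∧ IsCoprime (a + (i : ℤ)) (n : ℤ)}

end Vale.Agent.H4.P013
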