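import Mathlib
import Vale.Agent.H4.P013.Defs

/-!
# P013: Jacobsthal's function when only the least prime factor is small (helper4)

`jacobsthal n` is the least positive `m` such that every `m` consecutive integers contain one
coprime to `n`. With `k = ω(n)`, `q` the least prime factor of `n` and `B = k + ⌈k/(q-1)⌉`:
`jacobsthal n ≥ B` for every `n ≥ 2`, and `jacobsthal n = B` if every prime factor of `n` other
than `q` is at least `B`.
-/

namespace Vale.Agent.H4.P013

theorem jac_not_coprime {p n : ℕ} {x : ℤ} (hp : p.Prime) (hpn : p ∣ n) (hpx : (p : ℤ) ∣ x) :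
    ¬ IsCoprime x (n : ℤ) := by
  intro h
  have h1 : IsCoprime (p : ℤ) (n : ℤ) := h.of_isCoprime_of_dvd_left hpx
  have h2 : IsCoprime (p : ℤ) (p : ℤ) :=
    h1.of_isCoprime_of_dvd_right (Int.natCast_dvd_natCast.mpr hpn)
  have h3 : IsUnit (p : ℤ) := isCoprime_self.mp h2
  have h4 : IsUnit p := Int.ofNat_isUnit.mp h3
  have h5 : p = 1 := Nat.isUnit_iff.mp h4
  have h6 := hp.one_lt
  omega

theorem jac_coprime_of_forall {n : ℕ} {x : ℤ}
    (h : ∀ p : ℕ, p.Prime → p ∣ n → ¬ (p : ℤ) ∣ x) : IsCoprime x (n : ℤ) := by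
  rw [Int.isCoprime_iff_gcd_eq_one]
  have h1 : Nat.Coprime x.natAbs n := by
    apply Nat.coprime_of_dvd
    intro p hp hpx hpn
    exact h p hp hpn (Int.natCast_dvd.mpr hpx)
  simpa [Int.gcd] using h1

theorem jac_mem_self (n : ℕ) (hn : 1 ≤ n) :
    n ∈ {m : ℕ | 0 < m ∧ ∀ a : ℤ, ∃ i : ℕ, i < m ∧ IsCoprime (a + (i : ℤ)) (n : ℤ)} := by
  refine ⟨hn, fun a => ?_⟩
  have hn0 : (0 : ℤ) < n := by exact_mod_cast hn
  have h0 := Int.emod_nonneg (1 - a) hn0.ne'
  have h1 := Int.emod_lt_of_pos (1 - a) hn0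
  refine ⟨((1 - a) % (n : ℤ)).toNat, ?_, ?_⟩
  · omega
  · rw [Int.toNat_of_nonneg h0]
    have h2 := Int.emod_add_mul_ediv (1 - a) n
    have h3 : a + (1 - a) % (n : ℤ) = 1 + (n : ℤ) * (-((1 - a) / (n : ℤ))) := by linarith
    rw [h3]
    exact isCoprime_one_left.add_mul_left_left _

theorem jac_arith1 (k c q : ℕ) (hq : 2 ≤ q) (hc : k ≤ c * (q - 1)) :
    (k + c + q - 1) / q ≤ c := by
  obtain ⟨q', rfl⟩ : ∃ q', q = q' + 1 := ⟨q - 1, by omega⟩
  simp only [Nat.add_sub_cancel] at hc
  have h1 : k + c + (q' + 1) - 1 = k + c + q' := by omega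
  rw [h1]
  have h : k + c + q' < (c + 1) * (q' + 1) := by nlinarith
  exact Nat.lt_succ_iff.mp ((Nat.div_lt_iff_lt_mul (by omega)).mpr h)

theorem jac_arith2 (k c q N : ℕ) (hq : 2 ≤ q) (hc1 : 1 ≤ c)
    (hc : (c - 1) * (q - 1) < k) (hN : N = k + c - 1) :
    N - (N / q + if 0 < N % q then 1 else 0) ≤ k - 1 := by
  obtain ⟨q', rfl⟩ : ∃ q', q = q' + 1 := ⟨q - 1, by omega⟩
  obtain ⟨c', rfl⟩ : ∃ c', c = c' + 1 := ⟨c - 1, by omega⟩
  simp only [Nat.add_sub_cancel] at hc
  have hN' : N = k + c' := by omega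
  have hdm := Nat.div_add_mod N (q' + 1)
  have hs := Nat.mod_lt N (show 0 < q' + 1 by omega)
  set d := N / (q' + 1) with hd
  set s := N % (q' + 1) with hs'
  have hdm' : q' * d + d + s = N := by
    have : (q' + 1) * d = q' * d + d := by ring
    omega
  by_cases h0 : 0 < s
  · rw [if_pos h0]
    -- goal: N - (d + 1) ≤ k - 1
    by_contra hcon
    have h1 : k ≤ q' * d + s - 1 := by omega
    have h2 : d + 1 ≤ c' := by omega
    have h3 : q' * (d + 1) ≤ q' * c' := Nat.mul_le_mul_left q' h2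
    have h4 : q' * (d + 1) = q' * d + q' := by ring
    have h5 : c' * q' = q' * c' := by ring
    omega
  · rw [if_neg h0]
    have hs0 : s = 0 := by omega
    by_contra hcon
    have h1 : k ≤ q' * d := by omega
    have h2 : d ≤ c' := by omega
    have h3 : q' * d ≤ q' * c' := Nat.mul_le_mul_left q' h2
    have h5 : c' * q' = q' * c' := by ring
    omega

/-- Upper bound: with `k ≤ c (q - 1)` and all other prime factors at least `k + c`, every window
of `k + c` consecutive integers contains an integer coprime to `n`. -/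
theorem jac_upper (n : ℕ) (hn : 2 ≤ n) (c : ℕ)
    (hc : n.primeFactors.card ≤ c * (n.minFac - 1))
    (hbig : ∀ p ∈ n.primeFactors, p ≠ n.minFac → n.primeFactors.card + c ≤ p) (a : ℤ) :
    ∃ i : ℕ, i < n.primeFactors.card + c ∧ IsCoprime (a + (i : ℤ)) (n : ℤ) := by
  classical
  by_contra hcon
  push Not at hcon
  have hqp : n.minFac.Prime := Nat.minFac_prime (by omega)
  have hqn : n.minFac ∣ n := Nat.minFac_dvd n
  have hqmem : n.minFac ∈ n.primeFactors := Nat.mem_primeFactors.mpr ⟨hqp, hqn, by omega⟩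
  have hk1 : 1 ≤ n.primeFactors.card := Finset.card_pos.mpr ⟨n.minFac, hqmem⟩
  generalize hk : n.primeFactors.card = k at *
  generalize hq : n.minFac = q at *
  have hex : ∀ i : ℕ, i < k + c → ∃ p : ℕ, p ∈ n.primeFactors ∧ (p : ℤ) ∣ a + (i : ℤ) := by
    intro i hi
    by_contra hne
    push Not at hne
    apply hcon i hi
    apply jac_coprime_of_forall
    intro p hp hpn
    exact hne p (Nat.mem_primeFactors.mpr ⟨hp, hpn, by omega⟩)
  choose! f hf using hex
  have hsplit := Finset.card_filter_add_card_filter_not (s := Finset.range (k + c))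
    (fun i => f i = q)
  rw [Finset.card_range] at hsplit
  have h1 : ((Finset.range (k + c)).filter (fun i => f i = q)).card ≤ (k + c + q - 1) / q := by
    have h1' : ((Finset.range (k + c)).filter (fun i => f i = q)).card
        ≤ (Finset.range ((k + c + q - 1) / q)).card := by
      apply Finset.card_le_card_of_injOn (fun i => i / q)
      · intro i hi
        simp only [Finset.coe_filter, Finset.mem_range, Set.mem_ofPred_eq] at hi
        simp only [Finset.coe_range, Set.mem_Iio]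
        have h2 : (i + q) / q ≤ (k + c + q - 1) / q := Nat.div_le_div_right (by omega)
        rw [Nat.add_div_right i hqp.pos] at h2
        omega
      · intro i hi i' hi' heq
        simp only [Finset.coe_filter, Finset.mem_range, Set.mem_ofPred_eq] at hi hi'
        have d1 := (hf i hi.1).2
        have d2 := (hf i' hi'.1).2
        rw [hi.2] at d1
        rw [hi'.2] at d2
        have d3 : (q : ℤ) ∣ (i : ℤ) - (i' : ℤ) := by
          have := dvd_sub d1 d2
          simpa using this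
        have d4 : i' % q = i % q := Int.natCast_modEq_iff.mp (Int.modEq_iff_dvd.mpr d3)
        have e1 := Nat.div_add_mod i q
        have e2 := Nat.div_add_mod i' q
        have heq' : i / q = i' / q := heq
        rw [heq', ← d4] at e1
        exact e1.symm.trans e2
    simpa using h1'
  have h2 : ((Finset.range (k + c)).filter (fun i => ¬ f i = q)).card ≤ k - 1 := by
    have h2' : ((Finset.range (k + c)).filter (fun i => ¬ f i = q)).card
        ≤ (n.primeFactors.erase q).card := by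
      apply Finset.card_le_card_of_injOn f
      · intro i hi
        simp only [Finset.coe_filter, Finset.mem_range, Set.mem_ofPred_eq] at hi
        exact Finset.mem_coe.mpr (Finset.mem_erase.mpr ⟨hi.2, (hf i hi.1).1⟩)
      · intro i hi i' hi' heq
        simp only [Finset.coe_filter, Finset.mem_range, Set.mem_ofPred_eq] at hi hi'
        have d1 := (hf i hi.1).2
        have d2 := (hf i' hi'.1).2
        rw [heq] at d1
        have d3 : ((f i' : ℕ) : ℤ) ∣ (i : ℤ) - (i' : ℤ) := by
          have := dvd_sub d1 d2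
          simpa using this
        have hp := hbig (f i') (hf i' hi'.1).1 hi'.2
        by_contra hne
        have hne' : (i : ℤ) - (i' : ℤ) ≠ 0 := by
          intro h0
          apply hne
          have : (i : ℤ) = (i' : ℤ) := by linarith
          exact_mod_cast this
        have h3 : ((f i' : ℕ) : ℤ) ≤ |(i : ℤ) - (i' : ℤ)| :=
          Int.le_of_dvd (abs_pos.mpr hne') ((dvd_abs _ _).mpr d3)
        have h4 : |(i : ℤ) - (i' : ℤ)| < ((k + c : ℕ) : ℤ) := by
          rw [abs_lt]
          constructor <;> omega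
        have h5 : ((k + c : ℕ) : ℤ) ≤ ((f i' : ℕ) : ℤ) := by exact_mod_cast hp
        omega
    rw [Finset.card_erase_of_mem hqmem, hk] at h2'
    exact h2'
  have h3 := jac_arith1 k c q hqp.two_le hc
  omega

/-- Lower bound: with `(c - 1)(q - 1) < k`, some window of `k + c - 1` consecutive integers
contains no integer coprime to `n`. -/
theorem jac_lower (n : ℕ) (hn : 2 ≤ n) (c : ℕ) (hc1 : 1 ≤ c)
    (hc : (c - 1) * (n.minFac - 1) < n.primeFactors.card) :
    ∃ a : ℤ, ∀ i : ℕ, i < n.primeFactors.card + c - 1 → ¬ IsCoprime (a + (i : ℤ)) (n : ℤ) := by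
  classical
  have hqp : n.minFac.Prime := Nat.minFac_prime (by omega)
  have hqn : n.minFac ∣ n := Nat.minFac_dvd n
  have hqmem : n.minFac ∈ n.primeFactors := Nat.mem_primeFactors.mpr ⟨hqp, hqn, by omega⟩
  have hk1 : 1 ≤ n.primeFactors.card := Finset.card_pos.mpr ⟨n.minFac, hqmem⟩
  generalize hk : n.primeFactors.card = k at *
  generalize hq : n.minFac = q at *
  set N := k + c - 1 with hN
  set R := (Finset.range N).filter (fun i => ¬ q ∣ i) with hR
  set T := n.primeFactors.erase q with hT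
  have hTcard : T.card = k - 1 := by rw [hT, Finset.card_erase_of_mem hqmem, hk]
  -- the number of positions not divisible by `q`
  have hRcard : R.card ≤ k - 1 := by
    have hsplit := Finset.card_filter_add_card_filter_not (s := Finset.range N)
      (fun i => q ∣ i)
    rw [Finset.card_range, ← hR] at hsplit
    have h1 : ((Finset.range N).filter (fun i => q ∣ i)).card
        = Nat.count (fun i => i ≡ 0 [MOD q]) N := by
      rw [Nat.count_eq_card_filter_range]
      congr 1
      ext i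
      simp only [Finset.mem_filter, Finset.mem_range]
      rw [Nat.modEq_zero_iff_dvd]
    have h2 := Nat.count_modEq_card N hqp.pos 0
    rw [Nat.zero_mod] at h2
    have h3 := jac_arith2 k c q N hqp.two_le hc1 hc hN
    by_cases h0 : 0 < N % q
    · rw [if_pos h0] at h3
      rw [if_pos h0] at h2
      omega
    · rw [if_neg h0] at h3
      rw [if_neg h0] at h2
      omega
  -- an injection of the positions into the other prime factors
  have hcard : Fintype.card {i // i ∈ R} ≤ T.card := by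
    rw [Fintype.card_coe, hTcard]
    exact hRcard
  obtain ⟨g, hg⟩ := Function.Embedding.exists_of_card_le_finset hcard
  have hgT : ∀ (i : ℕ) (h : i ∈ R), g ⟨i, h⟩ ∈ T := fun i h => hg (Set.mem_range_self _)
  have hTprime : ∀ p ∈ T, p.Prime ∧ p ∣ n ∧ p ≠ q := by
    intro p hp
    rw [hT, Finset.mem_erase] at hp
    exact ⟨Nat.prime_of_mem_primeFactors hp.2, Nat.dvd_of_mem_primeFactors hp.2, hp.1⟩
  have h0R : (0 : ℕ) ∉ R := by
    rw [hR, Finset.mem_filter]
    intro h
    exact h.2 (dvd_zero q)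
  let s : ℕ → ℕ := fun i => if h : i ∈ R then g ⟨i, h⟩ else q
  have hs0 : s 0 = q := by simp [s, h0R]
  have hsR : ∀ (i : ℕ) (h : i ∈ R), s i = g ⟨i, h⟩ := fun i h => by simp [s, h]
  have hsprime : ∀ i ∈ insert 0 R, (s i).Prime := by
    intro i hi
    rcases Finset.mem_insert.mp hi with rfl | hi
    · rw [hs0]; exact hqp
    · rw [hsR i hi]; exact (hTprime _ (hgT i hi)).1
  have hsne : ∀ i ∈ insert 0 R, s i ≠ 0 := fun i hi => (hsprime i hi).ne_zero
  have hpp : Set.Pairwise (↑(insert 0 R) : Set ℕ) (Function.onFun Nat.Coprime s) := by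
    intro i hi i' hi' hne
    have hi1 : i ∈ insert 0 R := hi
    have hi1' : i' ∈ insert 0 R := hi'
    show Nat.Coprime (s i) (s i')
    rw [Nat.coprime_primes (hsprime i hi1) (hsprime i' hi1')]
    rcases Finset.mem_insert.mp hi1 with rfl | hiR
    · rcases Finset.mem_insert.mp hi1' with rfl | hiR'
      · exact absurd rfl hne
      · rw [hs0, hsR i' hiR']
        exact fun h => (hTprime _ (hgT i' hiR')).2.2 h.symm
    · rcases Finset.mem_insert.mp hi1' with rfl | hiR'
      · rw [hs0, hsR i hiR]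
        exact (hTprime _ (hgT i hiR)).2.2
      · rw [hsR i hiR, hsR i' hiR']
        intro h
        apply hne
        have := g.injective h
        exact congrArg Subtype.val this
  let x := Nat.chineseRemainderOfFinset (fun i => (s i - 1) * i) s (insert 0 R) hsne hpp
  have hx := x.2
  refine ⟨(x.1 : ℤ), fun i hi => ?_⟩
  have hkey : ∀ j ∈ insert 0 R, s j ∣ x.1 + j := by
    intro j hj
    have h1 : x.1 ≡ (s j - 1) * j [MOD s j] := hx j hj
    have h2 : x.1 + j ≡ (s j - 1) * j + j [MOD s j] := h1.add_right j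
    have h3 : (s j - 1) * j + j = s j * j := by
      have := (hsprime j hj).one_le
      obtain ⟨u, hu⟩ : ∃ u, s j = u + 1 := ⟨s j - 1, by omega⟩
      rw [hu]
      simp only [Nat.add_sub_cancel]
      ring
    rw [h3] at h2
    have h4 : s j * j ≡ 0 [MOD s j] := Nat.modEq_zero_iff_dvd.mpr (dvd_mul_right _ _)
    exact Nat.modEq_zero_iff_dvd.mp (h2.trans h4)
  by_cases hqi : q ∣ i
  · have h1 : q ∣ x.1 + 0 := by
      have := hkey 0 (Finset.mem_insert_self 0 R)
      rwa [hs0] at this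
    have h2 : q ∣ x.1 + i := by
      rw [add_zero] at h1
      exact dvd_add h1 hqi
    have h3 : (q : ℤ) ∣ (x.1 : ℤ) + (i : ℤ) := by exact_mod_cast h2
    exact jac_not_coprime hqp hqn h3
  · have hiR : i ∈ R := by
      rw [hR, Finset.mem_filter, Finset.mem_range]
      exact ⟨hi, hqi⟩
    have h1 := hkey i (Finset.mem_insert_of_mem hiR)
    rw [hsR i hiR] at h1
    have hp := hTprime _ (hgT i hiR)
    have h3 : ((g ⟨i, hiR⟩ : ℕ) : ℤ) ∣ (x.1 : ℤ) + (i : ℤ) := by exact_mod_cast h1
    exact jac_not_coprime hp.1 hp.2.1 h3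

/-- The ceiling `c = ⌈k/(q-1)⌉` satisfies `(c-1)(q-1) < k ≤ c(q-1)` and `c ≥ 1`. -/
theorem jac_ceil (k q : ℕ) (hk : 1 ≤ k) (hq : 2 ≤ q) :
    1 ≤ ⌈(k : ℝ) / ((q : ℝ) - 1)⌉₊ ∧ k ≤ ⌈(k : ℝ) / ((q : ℝ) - 1)⌉₊ * (q - 1) ∧
      (⌈(k : ℝ) / ((q : ℝ) - 1)⌉₊ - 1) * (q - 1) < k := by
  have hq1 : (0 : ℝ) < (q : ℝ) - 1 := by
    have : (2 : ℝ) ≤ q := by exact_mod_cast hq
    linarith
  have hk0 : (0 : ℝ) < k := by exact_mod_cast hk
  have hpos : (0 : ℝ) < (k : ℝ) / ((q : ℝ) - 1) := div_pos hk0 hq1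
  set c := ⌈(k : ℝ) / ((q : ℝ) - 1)⌉₊ with hc
  have hc1 : 1 ≤ c := Nat.ceil_pos.mpr hpos
  have hle : (k : ℝ) / ((q : ℝ) - 1) ≤ c := Nat.le_ceil _
  have hlt : (c : ℝ) < (k : ℝ) / ((q : ℝ) - 1) + 1 := Nat.ceil_lt_add_one hpos.le
  have hcast : ((q - 1 : ℕ) : ℝ) = (q : ℝ) - 1 := by
    rw [Nat.cast_sub (by omega)]
    simp
  refine ⟨hc1, ?_, ?_⟩
  · have h1 : (k : ℝ) ≤ (c : ℝ) * ((q : ℝ) - 1) := (div_le_iff₀ hq1).mp hle
    have h2 : (k : ℝ) ≤ ((c * (q - 1) : ℕ) : ℝ) := by
      rw [Nat.cast_mul, hcast]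
      exact h1
    exact_mod_cast h2
  · have h1 : (c : ℝ) - 1 < (k : ℝ) / ((q : ℝ) - 1) := by linarith
    have h2 : ((c : ℝ) - 1) * ((q : ℝ) - 1) < k := (lt_div_iff₀ hq1).mp h1
    have h3 : (((c - 1) * (q - 1) : ℕ) : ℝ) < (k : ℝ) := by
      rw [Nat.cast_mul, hcast, Nat.cast_sub hc1]
      simpa using h2
    exact_mod_cast h3

/-- Main theorem. -/
theorem main (n : ℕ) (hn : 2 ≤ n) :
    n.primeFactors.card + ⌈(n.primeFactors.card : ℝ) / ((n.minFac : ℝ) - 1)⌉₊ ≤ jacobsthal n ∧
    ((∀ p ∈ n.primeFactors, p ≠ n.minFac →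
        n.primeFactors.card + ⌈(n.primeFactors.card : ℝ) / ((n.minFac : ℝ) - 1)⌉₊ ≤ p) →
      jacobsthal n
          = n.primeFactors.card + ⌈(n.primeFactors.card : ℝ) / ((n.minFac : ℝ) - 1)⌉₊ ∧
        jacobsthal n ≤ 2 * n.primeFactors.card) := by
  have hqp : n.minFac.Prime := Nat.minFac_prime (by omega)
  have hqn : n.minFac ∣ n := Nat.minFac_dvd n
  have hqmem : n.minFac ∈ n.primeFactors := Nat.mem_primeFactors.mpr ⟨hqp, hqn, by omega⟩
  have hk1 : 1 ≤ n.primeFactors.card := Finset.card_pos.mpr ⟨n.minFac, hqmem⟩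
  obtain ⟨hc1, hc2, hc3⟩ := jac_ceil n.primeFactors.card n.minFac hk1 hqp.two_le
  set c := ⌈(n.primeFactors.card : ℝ) / ((n.minFac : ℝ) - 1)⌉₊ with hc
  have hlow : n.primeFactors.card + c ≤ jacobsthal n := by
    obtain ⟨a, ha⟩ := jac_lower n hn c hc1 hc3
    apply le_csInf ⟨n, jac_mem_self n (by omega)⟩
    intro m hm
    by_contra hlt
    push Not at hlt
    obtain ⟨i, hi, hcop⟩ := hm.2 a
    exact ha i (by omega) hcop
  refine ⟨hlow, fun hbig => ?_⟩
  have heq : jacobsthal n = n.primeFactors.card + c := by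
    refine le_antisymm ?_ hlow
    apply Nat.sInf_le
    exact ⟨by omega, fun a => jac_upper n hn c hc2 hbig a⟩
  refine ⟨heq, ?_⟩
  have h2 := hqp.two_le
  have h3 : c - 1 ≤ (c - 1) * (n.minFac - 1) := Nat.le_mul_of_pos_right _ (by omega)
  omega

end Vale.Agent.H4.P013
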